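import Vale.Agent.P325.H111.K2.Stmts

/-!
# Two different addresses: both sums are small with small probability
-/

namespace Vale.Agent.P325.K2

open Finset

/-- Resampling of a part of the coordinates. -/
theorem Ex_resample {X U : Type} [Fintype X] [Fintype U] [Nonempty U] (get : X → U)
    (set : X → U → X) (h1 : ∀ x u, get (set x u) = u) (h2 : ∀ x u, set (set x u) (get x) = x)
    (f : X → ℝ) : Ex f = Ex fun x => Ex fun u => f (set x u) := by
  let e : X × U ≃ X × U :=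
    { toFun := fun p => (set p.1 p.2, get p.1)
      invFun := fun p => (set p.1 p.2, get p.1)
      left_inv := fun p => by
        obtain ⟨x, u⟩ := p
        simp only [h1, h2]
      right_inv := fun p => by
        obtain ⟨x, u⟩ := p
        simp only [h1, h2] }
  have h3 := Ex_equiv e fun p => f p.1
  simp only [e, Equiv.coe_fn_mk] at h3
  rw [Ex_prod, Ex_prod] at h3
  simp only [Ex_const] at h3
  exact h3.symm

/-- Resampling of a part of the coordinates. -/
theorem Pr_resample {X U : Type} [Fintype X] [Fintype U] [Nonempty U] (get : X → U)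
    (set : X → U → X) (h1 : ∀ x u, get (set x u) = u) (h2 : ∀ x u, set (set x u) (get x) = x)
    (p : X → Prop) : Pr p = Ex fun x => Pr fun u => p (set x u) := by
  classical
  exact Ex_resample get set h1 h2 fun x => if p x then (1 : ℝ) else 0

/-- Independence. -/
theorem Pr_and_prod {α β : Type} [Fintype α] [Fintype β] (p : α → Prop) (q : β → Prop) :
    Pr (fun x : α × β => p x.1 ∧ q x.2) = Pr p * Pr q := by
  classical
  rw [Pr_prod]
  have h1 : ∀ x : α, (Pr fun y : β => p x ∧ q y) = (if p x then 1 else 0) * Pr q := by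
    intro x
    by_cases h : p x
    · rw [if_pos h, one_mul]
      exact Pr_congr fun y => by simp [h]
    · rw [if_neg h, zero_mul]
      unfold Pr
      simp [h, Ex]
  simp only [h1]
  rw [Ex_mul_const]
  rfl

theorem Pr_false {α : Type} [Fintype α] (p : α → Prop) (h : ∀ x, ¬ p x) : Pr p = 0 := by
  unfold Pr
  simp [h, Ex]

/-- The number of small values of `Fin L`. -/
theorem Pr_fin_lt (L : ℕ) (t : ℝ) (ht : 0 ≤ t) :
    Pr (fun v : Fin L => ((v : ℕ) : ℝ) < t) ≤ (t + 1) / L := by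
  classical
  rw [Pr_eq_card, Fintype.card_fin]
  refine div_le_div_of_nonneg_right ?_ (Nat.cast_nonneg _)
  have h1 : #{v : Fin L | ((v : ℕ) : ℝ) < t} ≤ ⌈t⌉₊ := by
    have h2 : #{v : Fin L | ((v : ℕ) : ℝ) < t} ≤ #(range ⌈t⌉₊) := by
      refine card_le_card_of_injOn (fun v : Fin L => (v : ℕ)) ?_ ?_
      · intro v hv
        have hv' : ((v : ℕ) : ℝ) < t := by simpa using hv
        simpa using Nat.lt_ceil.2 hv'
      · intro v _ w _ h
        exact Fin.ext h
    simpa using h2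
  have h3 : (⌈t⌉₊ : ℝ) < t + 1 := Nat.ceil_lt_add_one ht
  have h4 : (#{v : Fin L | ((v : ℕ) : ℝ) < t} : ℝ) ≤ (⌈t⌉₊ : ℝ) := by exact_mod_cast h1
  linarith

/-- One slot of large weight. -/
theorem Pr_one (C : ℝ) (hC : 0 < C) (L : ℕ) (hL : 0 < L)
    (hB : ∀ v : ℤ, Pr (fun y : Fin (L * L) → Bool => xv L y = v) ≤ C / L) (s : ℤ) (α : ℕ)
    (δ : ℝ) (hδ : 0 < δ) (hα : δ * L ≤ α) :
    Pr (fun y : Fin (L * L) → Bool => |s + (α : ℤ) * xv L y| ≤ 2 * L) ≤ (4 / δ + 1) * C / L := by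
  classical
  have hL' : (0 : ℝ) < L := by exact_mod_cast hL
  have hα0 : (0 : ℝ) < α := lt_of_lt_of_le (by positivity) hα
  set x : ℝ := (2 * L - s) / α with hx
  set y : ℝ := (- (2 * L) - s) / α with hy
  set S : Finset ℤ := Icc ⌈y⌉ ⌊x⌋ with hS
  have h1 : Pr (fun b : Fin (L * L) → Bool => |s + (α : ℤ) * xv L b| ≤ 2 * L) ≤
      ∑ v ∈ S, Pr (fun b : Fin (L * L) → Bool => xv L b = v) := by
    unfold Pr
    rw [← Ex_sum]
    refine Ex_mono fun b => ?_
    split_ifs with h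
    · have hmem : xv L b ∈ S := by
        rw [hS, mem_Icc]
        obtain ⟨h2, h3⟩ := abs_le.1 h
        have h2' : (-(2 * (L : ℝ))) ≤ s + α * (xv L b : ℝ) := by exact_mod_cast h2
        have h3' : s + α * (xv L b : ℝ) ≤ 2 * (L : ℝ) := by exact_mod_cast h3
        constructor
        · rw [Int.ceil_le, hy, div_le_iff₀ hα0]
          linarith
        · rw [Int.le_floor, hx, le_div_iff₀ hα0]
          linarith
      refine le_trans ?_ (single_le_sum
        (f := fun v => @ite ℝ ((fun b : Fin (L * L) → Bool => xv L b = v) b)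
          (Classical.propDecidable _) 1 0)
        (fun _ _ => by split_ifs <;> norm_num) hmem)
      simp
    · exact sum_nonneg fun _ _ => by split_ifs <;> norm_num
  have h2 : (∑ v ∈ S, Pr (fun b : Fin (L * L) → Bool => xv L b = v)) ≤ #S * (C / L) := by
    rw [← nsmul_eq_mul]
    exact sum_le_card_nsmul _ _ _ fun v _ => hB v
  have h3 : (#S : ℝ) ≤ 4 / δ + 1 := by
    rw [hS, Int.card_Icc]
    have h4 : x - y ≤ 4 / δ := by
      rw [hx, hy, ← sub_div, div_le_div_iff₀ hα0 hδ]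
      nlinarith
    have h5 : (((⌊x⌋ + 1 - ⌈y⌉).toNat : ℤ) : ℝ) ≤ 4 / δ + 1 := by
      rw [Int.toNat_eq_max]
      push_cast
      refine max_le ?_ (by positivity)
      have := Int.floor_le x
      have := Int.le_ceil y
      linarith
    exact_mod_cast h5
  refine h1.trans (h2.trans ?_)
  rw [mul_div_assoc]
  exact mul_le_mul_of_nonneg_right h3 (by positivity)

section

variable {n L : ℕ} {K : Type} [DecidableEq K]

/-- Replace the bits of one key. -/
def setB (y : Bt n L K → Bool) (k : Fin n) (κ : K) (b : Fin (L * L) → Bool) : Bt n L K → Bool :=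
  fun i => if i.1 = k ∧ i.2.1 = κ then b i.2.2 else y i

/-- The bits of one key. -/
def getB (y : Bt n L K → Bool) (k : Fin n) (κ : K) : Fin (L * L) → Bool := fun i => y (k, κ, i)

theorem getB_setB (y : Bt n L K → Bool) (k : Fin n) (κ : K) (b : Fin (L * L) → Bool) :
    getB (setB y k κ b) k κ = b := by
  funext i
  simp [getB, setB]

theorem getB_setB_ne (y : Bt n L K → Bool) (k k' : Fin n) (κ κ' : K) (b : Fin (L * L) → Bool)
    (h : ¬ (k' = k ∧ κ' = κ)) : getB (setB y k κ b) k' κ' = getB y k' κ' := by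
  funext i
  simp [getB, setB, h]

theorem setB_setB (y : Bt n L K → Bool) (k : Fin n) (κ : K) (b b' : Fin (L * L) → Bool) :
    setB (setB y k κ b) k κ b' = setB y k κ b' := by
  funext i
  by_cases h : i.1 = k ∧ i.2.1 = κ <;> simp [setB, h]

theorem setB_getB (y : Bt n L K → Bool) (k : Fin n) (κ : K) :
    setB y k κ (getB y k κ) = y := by
  funext i
  by_cases h : i.1 = k ∧ i.2.1 = κ
  · obtain ⟨a, b, c⟩ := i
    obtain ⟨h1, h2⟩ := h
    simp only at h1 h2
    subst h1 h2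
    simp [setB, getB]
  · simp [setB, h]

theorem setB_comm (y : Bt n L K → Bool) (k k' : Fin n) (κ κ' : K) (b b' : Fin (L * L) → Bool)
    (h : ¬ (k' = k ∧ κ' = κ)) : setB (setB y k κ b) k' κ' b' = setB (setB y k' κ' b') k κ b := by
  funext i
  by_cases h1 : i.1 = k ∧ i.2.1 = κ
  · have h2 : ¬ (i.1 = k' ∧ i.2.1 = κ') := fun h2 => h ⟨h2.1.symm.trans h1.1, h2.2.symm.trans h1.2⟩
    simp [setB, h1]
    intro h3 h4
    exact absurd ⟨h3.symm, h4.symm⟩ h
  · simp [setB, h1]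

omit [DecidableEq K] in
theorem Ssum_eq (a : Fin n → Fin L) (y : Bt n L K → Bool) (κ : Fin n → K) :
    Ssum a y κ = ∑ k, (a k : ℤ) * xv L (getB y k (κ k)) := rfl

/-! ### Part 1: the weight of the slot `k1` is small -/

omit [DecidableEq K] in
theorem Ssum_two (a : Fin n → Fin L) (y : Bt n L K → Bool) (κ : Fin n → K) (k2 k3 : Fin n)
    (h23 : k2 ≠ k3) : Ssum a y κ = (∑ k ∈ ({k2, k3} : Finset (Fin n))ᶜ,
      (a k : ℤ) * xv L (getB y k (κ k))) + (a k2 : ℤ) * xv L (getB y k2 (κ k2)) +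
      (a k3 : ℤ) * xv L (getB y k3 (κ k3)) := by
  rw [Ssum_eq, ← sum_compl_add_sum {k2, k3}, sum_pair h23]
  ring

theorem part1 (C : ℝ) (hL : 0 < L)
    (hT : ∀ s : ℤ, Pr (fun p : (Fin L × Fin L) × (Fin (L * L) → Bool) × (Fin (L * L) → Bool) =>
      |s + (p.1.1 : ℤ) * xv L p.2.1 + (p.1.2 : ℤ) * xv L p.2.2| ≤ 2 * L) ≤ C / L)
    [Fintype K] (κ : Fin n → K) (k1 k2 k3 : Fin n) (h12 : k1 ≠ k2) (h13 : k1 ≠ k3)
    (h23 : k2 ≠ k3) (t : ℝ) (ht : 0 ≤ t) :
    Pr (fun p : (Fin n → Fin L) × (Bt n L K → Bool) =>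
      ((p.1 k1 : ℕ) : ℝ) < t ∧ near p.1 p.2 κ) ≤ (t + 1) / L * (C / L) := by
  classical
  have hne : Nonempty (Fin L) := ⟨⟨0, hL⟩⟩
  let get : (Fin n → Fin L) × (Bt n L K → Bool) →
      (Fin L × Fin L) × (Fin (L * L) → Bool) × (Fin (L * L) → Bool) := fun p =>
    ((p.1 k2, p.1 k3), getB p.2 k2 (κ k2), getB p.2 k3 (κ k3))
  let set : (Fin n → Fin L) × (Bt n L K → Bool) →
      (Fin L × Fin L) × (Fin (L * L) → Bool) × (Fin (L * L) → Bool) →
      (Fin n → Fin L) × (Bt n L K → Bool) := fun p u =>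
    (Function.update (Function.update p.1 k2 u.1.1) k3 u.1.2,
      setB (setB p.2 k2 (κ k2) u.2.1) k3 (κ k3) u.2.2)
  have hk : ¬ (k2 = k3 ∧ κ k2 = κ k3) := fun h => h23 h.1
  have h1 : ∀ x u, get (set x u) = u := by
    intro x u
    simp only [get, set]
    rw [Function.update_self, Function.update_of_ne h23, Function.update_self, getB_setB,
      getB_setB_ne _ _ _ _ _ _ hk, getB_setB]
  have h2 : ∀ x u, set (set x u) (get x) = x := by
    intro x u
    obtain ⟨a, y⟩ := x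
    simp only [get, set, Prod.mk.injEq]
    constructor
    · funext k
      by_cases h3 : k = k3
      · subst h3
        rw [Function.update_self]
      · rw [Function.update_of_ne h3]
        by_cases h4 : k = k2
        · subst h4
          rw [Function.update_self]
        · rw [Function.update_of_ne h4, Function.update_of_ne h3, Function.update_of_ne h4]
    · rw [setB_comm _ k3 k2 _ _ _ _ hk, setB_setB, setB_setB, setB_getB, setB_getB]
  rw [Pr_resample get set h1 h2]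
  have h3 : ∀ x : (Fin n → Fin L) × (Bt n L K → Bool),
      (Pr fun u => (((set x u).1 k1 : ℕ) : ℝ) < t ∧ near (set x u).1 (set x u).2 κ) ≤
        (if ((x.1 k1 : ℕ) : ℝ) < t then 1 else 0) * (C / L) := by
    intro x
    have hk1 : ∀ u, (set x u).1 k1 = x.1 k1 := by
      intro u
      simp only [set]
      rw [Function.update_of_ne h13, Function.update_of_ne h12]
    by_cases h4 : ((x.1 k1 : ℕ) : ℝ) < t
    · rw [if_pos h4, one_mul]
      refine le_trans (Pr_mono ?_) (hT (∑ k ∈ ({k2, k3} : Finset (Fin n))ᶜ,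
        (x.1 k : ℤ) * xv L (getB x.2 k (κ k))))
      intro u hu
      have h5 := hu.2
      unfold near at h5
      rw [Ssum_two _ _ _ k2 k3 h23] at h5
      have h6 : (∑ k ∈ ({k2, k3} : Finset (Fin n))ᶜ,
          (((set x u).1 k : ℕ) : ℤ) * xv L (getB (set x u).2 k (κ k))) =
          ∑ k ∈ ({k2, k3} : Finset (Fin n))ᶜ, (x.1 k : ℤ) * xv L (getB x.2 k (κ k)) := by
        refine sum_congr rfl fun k hk3 => ?_
        have hk4 : k ≠ k2 ∧ k ≠ k3 := by simpa using hk3
        simp only [set]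
        rw [Function.update_of_ne hk4.2, Function.update_of_ne hk4.1,
          getB_setB_ne _ _ _ _ _ _ (fun h => hk4.2 h.1),
          getB_setB_ne _ _ _ _ _ _ (fun h => hk4.1 h.1)]
      rw [h6] at h5
      simp only [set] at h5
      rw [Function.update_self, Function.update_of_ne h23, Function.update_self, getB_setB,
        getB_setB_ne _ _ _ _ _ _ hk, getB_setB] at h5
      exact h5
    · rw [if_neg h4, zero_mul]
      refine le_of_eq (Pr_false _ ?_)
      intro u hu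
      rw [hk1 u] at hu
      exact h4 hu.1
  refine le_trans (Ex_mono h3) ?_
  rw [Ex_mul_const]
  have hC0 : 0 ≤ C / L := le_trans (Pr_nonneg _) (hT 0)
  refine mul_le_mul_of_nonneg_right ?_ hC0
  have h4 : (Ex fun x : (Fin n → Fin L) × (Bt n L K → Bool) =>
      if ((x.1 k1 : ℕ) : ℝ) < t then (1 : ℝ) else 0) =
      Pr fun v : Fin L => ((v : ℕ) : ℝ) < t := by
    have h5 : (Ex fun x : (Fin n → Fin L) × (Bt n L K → Bool) =>
        if ((x.1 k1 : ℕ) : ℝ) < t then (1 : ℝ) else 0) =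
        Pr fun x : (Fin n → Fin L) × (Bt n L K → Bool) => ((x.1 k1 : ℕ) : ℝ) < t := rfl
    rw [h5, Pr_resample (U := Fin L) (fun p => p.1 k1)
      (fun p v => (Function.update p.1 k1 v, p.2)) (by intro x u; simp)
      (by intro x u; simp)]
    simp only [Function.update_self]
    rw [Ex_const]
  rw [h4]
  exact Pr_fin_lt L t ht

/-! ### Part 2: the weight of the slot `k1` is large -/

omit [DecidableEq K] in
theorem Ssum_one (a : Fin n → Fin L) (y : Bt n L K → Bool) (κ : Fin n → K) (k1 : Fin n) :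
    Ssum a y κ = (∑ k ∈ ({k1} : Finset (Fin n))ᶜ,
      (a k : ℤ) * xv L (getB y k (κ k))) + (a k1 : ℤ) * xv L (getB y k1 (κ k1)) := by
  rw [Ssum_eq, ← sum_compl_add_sum {k1}, sum_singleton]

theorem part2 (C : ℝ) (hC : 0 < C) (hL : 0 < L)
    (hB : ∀ v : ℤ, Pr (fun y : Fin (L * L) → Bool => xv L y = v) ≤ C / L)
    [Fintype K] (κ κ' : Fin n → K) (k1 : Fin n) (hκ : κ k1 ≠ κ' k1) (δ : ℝ) (hδ : 0 < δ) :
    Pr (fun p : (Fin n → Fin L) × (Bt n L K → Bool) =>
      δ * L ≤ ((p.1 k1 : ℕ) : ℝ) ∧ near p.1 p.2 κ ∧ near p.1 p.2 κ') ≤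
      ((4 / δ + 1) * C / L) * ((4 / δ + 1) * C / L) := by
  classical
  have hne : Nonempty (Fin L) := ⟨⟨0, hL⟩⟩
  let get : (Fin n → Fin L) × (Bt n L K → Bool) →
      (Fin (L * L) → Bool) × (Fin (L * L) → Bool) := fun p =>
    (getB p.2 k1 (κ k1), getB p.2 k1 (κ' k1))
  let set : (Fin n → Fin L) × (Bt n L K → Bool) →
      (Fin (L * L) → Bool) × (Fin (L * L) → Bool) →
      (Fin n → Fin L) × (Bt n L K → Bool) := fun p u =>
    (p.1, setB (setB p.2 k1 (κ k1) u.1) k1 (κ' k1) u.2)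
  have hk : ¬ (k1 = k1 ∧ κ k1 = κ' k1) := fun h => hκ h.2
  have h1 : ∀ x u, get (set x u) = u := by
    intro x u
    simp only [get, set]
    rw [getB_setB, getB_setB_ne _ _ _ _ _ _ hk, getB_setB]
  have h2 : ∀ x u, set (set x u) (get x) = x := by
    intro x u
    obtain ⟨a, y⟩ := x
    simp only [get, set, Prod.mk.injEq]
    refine ⟨trivial, ?_⟩
    rw [setB_comm _ k1 k1 (κ' k1) (κ k1) _ _ hk, setB_setB, setB_setB, setB_getB, setB_getB]
  rw [Pr_resample get set h1 h2]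
  have hP0 : 0 ≤ (4 / δ + 1) * C / L := by positivity
  have h3 : ∀ x : (Fin n → Fin L) × (Bt n L K → Bool),
      (Pr fun u => (δ * L ≤ (((set x u).1 k1 : ℕ) : ℝ) ∧ near (set x u).1 (set x u).2 κ ∧
        near (set x u).1 (set x u).2 κ')) ≤
        ((4 / δ + 1) * C / L) * ((4 / δ + 1) * C / L) := by
    intro x
    by_cases h4 : δ * L ≤ ((x.1 k1 : ℕ) : ℝ)
    · have h5 : ∀ u, (δ * L ≤ (((set x u).1 k1 : ℕ) : ℝ) ∧ near (set x u).1 (set x u).2 κ ∧
          near (set x u).1 (set x u).2 κ') →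
          (|(∑ k ∈ ({k1} : Finset (Fin n))ᶜ, (x.1 k : ℤ) * xv L (getB x.2 k (κ k))) +
            ((x.1 k1 : ℕ) : ℤ) * xv L u.1| ≤ 2 * L ∧
          |(∑ k ∈ ({k1} : Finset (Fin n))ᶜ, (x.1 k : ℤ) * xv L (getB x.2 k (κ' k))) +
            ((x.1 k1 : ℕ) : ℤ) * xv L u.2| ≤ 2 * L) := by
        rintro u ⟨-, h6, h7⟩
        unfold near at h6 h7
        rw [Ssum_one _ _ _ k1] at h6 h7
        have h8 : ∀ κ1 : Fin n → K, (∑ k ∈ ({k1} : Finset (Fin n))ᶜ,
            (((set x u).1 k : ℕ) : ℤ) * xv L (getB (set x u).2 k (κ1 k))) =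
            ∑ k ∈ ({k1} : Finset (Fin n))ᶜ, (x.1 k : ℤ) * xv L (getB x.2 k (κ1 k)) := by
          intro κ1
          refine sum_congr rfl fun k hk3 => ?_
          have hk4 : k ≠ k1 := by simpa using hk3
          simp only [set]
          rw [getB_setB_ne _ _ _ _ _ _ (fun h => hk4 h.1),
            getB_setB_ne _ _ _ _ _ _ (fun h => hk4 h.1)]
        rw [h8] at h6 h7
        simp only [set] at h6 h7
        rw [getB_setB_ne _ _ _ _ _ _ hk, getB_setB] at h6
        rw [getB_setB] at h7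
        exact ⟨h6, h7⟩
      refine le_trans (Pr_mono h5) ?_
      rw [Pr_and_prod (fun b : Fin (L * L) → Bool =>
        |(∑ k ∈ ({k1} : Finset (Fin n))ᶜ, (x.1 k : ℤ) * xv L (getB x.2 k (κ k))) +
            ((x.1 k1 : ℕ) : ℤ) * xv L b| ≤ 2 * L)
        (fun b : Fin (L * L) → Bool =>
        |(∑ k ∈ ({k1} : Finset (Fin n))ᶜ, (x.1 k : ℤ) * xv L (getB x.2 k (κ' k))) +
            ((x.1 k1 : ℕ) : ℤ) * xv L b| ≤ 2 * L)]
      exact mul_le_mul (Pr_one C hC L hL hB _ _ δ hδ h4) (Pr_one C hC L hL hB _ _ δ hδ h4)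
        (Pr_nonneg _) hP0
    · rw [Pr_false _ fun u hu => h4 hu.1]
      positivity
  refine le_trans (Ex_mono h3) (le_of_eq (Ex_const _))

/-- Package A4. -/
theorem pairThm (hBall : BallThm) (hTwo : TwoThm) : PairThm := by
  intro n hn ε hε
  obtain ⟨CB, hCB, hB⟩ := hBall
  obtain ⟨CT, hCT, hT⟩ := hTwo
  set δ : ℝ := ε / (3 * CT) with hδ
  have hδ0 : 0 < δ := by positivity
  set P0 : ℝ := (4 / δ + 1) * CB with hP0
  have hP0' : 0 < P0 := by positivity
  refine ⟨max 2 (max ⌈3 * CT / ε⌉₊ ⌈3 * P0 ^ 2 / ε⌉₊), ?_⟩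
  intro L hL hev K _ _ κ κ' hκ
  have hL2 : 2 ≤ L := le_trans (le_max_left _ _) hL
  have hL3 : 3 * CT / ε ≤ L := le_trans (Nat.le_ceil _)
    (by exact_mod_cast le_trans (le_trans (le_max_left _ _) (le_max_right _ _)) hL)
  have hL4 : 3 * P0 ^ 2 / ε ≤ L := le_trans (Nat.le_ceil _)
    (by exact_mod_cast le_trans (le_trans (le_max_right _ _) (le_max_right _ _)) hL)
  have hL0 : (0 : ℝ) < L := by exact_mod_cast (by omega : 0 < L)
  obtain ⟨k1, hk1⟩ := Function.ne_iff.1 hκ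
  obtain ⟨k2, hk2, k3, hk3, h23⟩ : ∃ k2 : Fin n, k1 ≠ k2 ∧ ∃ k3 : Fin n, k1 ≠ k3 ∧ k2 ≠ k3 := by
    have h5 : 1 < #((univ : Finset (Fin n)).erase k1) := by
      rw [card_erase_of_mem (mem_univ _), card_univ, Fintype.card_fin]
      omega
    obtain ⟨a, ha, b, hb, hab⟩ := one_lt_card.1 h5
    exact ⟨a, (ne_of_mem_erase ha).symm, b, (ne_of_mem_erase hb).symm, hab⟩
  have h6 : Pr (fun p : (Fin n → Fin L) × (Bt n L K → Bool) =>
      near p.1 p.2 κ ∧ near p.1 p.2 κ') ≤
      (δ * L + 1) / L * (CT / L) + ((4 / δ + 1) * CB / L) * ((4 / δ + 1) * CB / L) := by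
    refine le_trans (Pr_mono (q := fun p : (Fin n → Fin L) × (Bt n L K → Bool) =>
      (((p.1 k1 : ℕ) : ℝ) < δ * L ∧ near p.1 p.2 κ) ∨
      (δ * L ≤ ((p.1 k1 : ℕ) : ℝ) ∧ near p.1 p.2 κ ∧ near p.1 p.2 κ')) ?_) ?_
    · rintro p ⟨h7, h8⟩
      by_cases h9 : ((p.1 k1 : ℕ) : ℝ) < δ * L
      · exact Or.inl ⟨h9, h7⟩
      · exact Or.inr ⟨not_lt.1 h9, h7, h8⟩
    · refine le_trans (Pr_or_le _ _) (add_le_add ?_ ?_)
      · exact part1 CT (by omega) (hT L hL2 hev) κ k1 k2 k3 hk2 hk3 h23 _ (by positivity)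
      · exact part2 CB hCB (by omega) (hB L hL2 hev) κ κ' k1 hk1 δ hδ0
  refine h6.trans ?_
  have e1 : (δ * L + 1) / L * (CT / L) = δ * CT / L + CT / L / L := by
    field_simp
  have e2 : δ * CT / L = ε / L / 3 := by
    rw [hδ]
    field_simp
  have e3 : CT / L / L ≤ ε / L / 3 := by
    rw [div_le_iff₀ hε] at hL3
    rw [div_div, div_div, div_le_div_iff₀ (by positivity) (by positivity)]
    nlinarith
  have e4 : ((4 / δ + 1) * CB / L) * ((4 / δ + 1) * CB / L) ≤ ε / L / 3 := by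
    rw [← hP0, div_le_iff₀ hε] at *
    rw [div_mul_div_comm, div_div, div_le_div_iff₀ (by positivity) (by positivity)]
    nlinarith
  rw [e1, e2]
  linarith

end

end Vale.Agent.P325.K2
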