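import Vale.Agent.P325.H664.K2.Pair

/-!
# Pairs of label tuples for a window
-/

namespace Vale.Agent.P325.K2

open Finset Vale.Agent.Lib.PCP Vale.Agent.P342

theorem adr_inj {n N r : ℕ} (hn : 0 < n) (π : Win n N → Fin r → Fin r) (c : Win n N) :
    Function.Injective (adr π c) := by
  intro ν ν' h
  funext b
  obtain ⟨k, hk⟩ : ∃ k : Fin n, b k = c k ∨ Dj b c := by
    by_cases h1 : ∃ k : Fin n, b k = c k
    · obtain ⟨k, hk⟩ := h1
      exact ⟨k, Or.inl hk⟩
    · exact ⟨⟨0, hn⟩, Or.inr fun k hk => h1 ⟨k, hk⟩⟩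
  have h2 := congrFun (congrArg Prod.snd (congrFun h k)) b
  simp only [adr, if_pos hk] at h2
  exact h2

/-- Package A5. -/
theorem pairAvg (h : PairThm) : PairAvg := by
  classical
  intro n N r hn ε hε
  set M : ℝ := (Fintype.card (Lab n N r) : ℝ) with hM
  have hM0 : 0 ≤ M := Nat.cast_nonneg _
  obtain ⟨L0, hL0⟩ := h n hn (ε / (M ^ 2 + 1)) (by positivity)
  refine ⟨L0, fun L hL hev π c => ?_⟩
  have h1 : Ex (fun a : Fin n → Fin L => pairs n L (adr π c) a) =
      ∑ ν : Lab n N r, ∑ ν' : Lab n N r, Ex (fun a : Fin n → Fin L =>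
        if ν = ν' then (0 : ℝ) else
        Pr fun y : Sd n N r L => near a y (adr π c ν) ∧ near a y (adr π c ν')) := by
    unfold pairs
    rw [Ex_sum]
    refine sum_congr rfl fun ν _ => ?_
    rw [Ex_sum]
    refine sum_congr rfl fun ν' _ => ?_
    refine Ex_congr fun a => ?_
    by_cases h2 : ν = ν'
    · rw [if_pos h2, if_pos h2]
    · rw [if_neg h2, if_neg h2]
  rw [h1]
  have h2 : ∀ ν ν' : Lab n N r, Ex (fun a : Fin n → Fin L =>
        if ν = ν' then (0 : ℝ) else
        Pr fun y : Sd n N r L => near a y (adr π c ν) ∧ near a y (adr π c ν')) ≤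
        ε / (M ^ 2 + 1) / L := by
    intro ν ν'
    by_cases h3 : ν = ν'
    · simp only [if_pos h3]
      have : Ex (fun _ : Fin n → Fin L => (0 : ℝ)) = 0 := by simp [Ex]
      rw [this]
      positivity
    · simp only [if_neg h3]
      have h4 := hL0 L hL hev (Key n N r) (adr π c ν) (adr π c ν')
        fun h5 => h3 (adr_inj (by omega) π c h5)
      rw [Pr_prod] at h4
      exact h4
  calc (∑ ν : Lab n N r, ∑ ν' : Lab n N r, Ex (fun a : Fin n → Fin L =>
        if ν = ν' then (0 : ℝ) else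
        Pr fun y : Sd n N r L => near a y (adr π c ν) ∧ near a y (adr π c ν')))
      ≤ ∑ ν : Lab n N r, ∑ ν' : Lab n N r, ε / (M ^ 2 + 1) / L :=
        sum_le_sum fun ν _ => sum_le_sum fun ν' _ => h2 ν ν'
    _ = M ^ 2 * (ε / (M ^ 2 + 1) / L) := by
        simp only [sum_const, card_univ, nsmul_eq_mul]
        rw [← hM]
        ring
    _ = (M ^ 2 / (M ^ 2 + 1)) * (ε / L) := by ring
    _ ≤ 1 * (ε / L) := by
        refine mul_le_mul_of_nonneg_right ?_ (by positivity)
        rw [div_le_one (by positivity)]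
        linarith
    _ = ε / L := one_mul _

end Vale.Agent.P325.K2
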